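import Mathlib

/-! Definitions for symplectic packings of a ball by balls. -/

namespace Vale.Agent.P209

open scoped ContDiff

noncomputable section

/-- The standard symplectic form on `ℂ^n`: `ω₀(u,v) = ∑ⱼ (Re uⱼ Im vⱼ - Im uⱼ Re vⱼ)`. -/
def omega0 {n : ℕ} (u v : Fin n → ℂ) : ℝ :=
  ∑ j, ((u j).re * (v j).im - (u j).im * (v j).re)

/-- The closed ball of capacity `R` in `ℂ^n`. -/
def closedBallCap (n : ℕ) (R : ℝ) : Set (Fin n → ℂ) :=
  {z | Real.pi * ∑ j, ‖z j‖ ^ 2 ≤ R}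

/-- The open ball of capacity `R` in `ℂ^n`. -/
def openBallCap (n : ℕ) (R : ℝ) : Set (Fin n → ℂ) :=
  {z | Real.pi * ∑ j, ‖z j‖ ^ 2 < R}

/-- `φ` is a symplectic embedding of the set `K`: it is smooth on an open neighbourhood `U` of `K`,
restricts to a topological embedding of `U`, and pulls `ω₀` back to `ω₀` on `U`. -/
def IsSymplecticEmbedding {n : ℕ} (K : Set (Fin n → ℂ)) (φ : (Fin n → ℂ) → (Fin n → ℂ)) : Prop :=
  ∃ U : Set (Fin n → ℂ), IsOpen U ∧ K ⊆ U ∧ ContDiffOn ℝ ∞ φ U ∧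
    Topology.IsEmbedding (U.domRestrict φ) ∧
    ∀ z ∈ U, ∀ u v : Fin n → ℂ, omega0 (fderiv ℝ φ z u) (fderiv ℝ φ z v) = omega0 u v

/-- The disjoint union of the closed balls of capacities `r i` embeds symplectically into the open
ball of capacity `R` in `ℂ^n`. -/
def BallsEmbed (n k : ℕ) (r : Fin k → ℝ) (R : ℝ) : Prop :=
  ∃ φ : Fin k → (Fin n → ℂ) → (Fin n → ℂ),
    (∀ i, IsSymplecticEmbedding (closedBallCap n (r i)) (φ i)) ∧
    (∀ i, φ i '' closedBallCap n (r i) ⊆ openBallCap n R) ∧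
    (∀ i j, i ≠ j → Disjoint (φ i '' closedBallCap n (r i)) (φ j '' closedBallCap n (r j)))

end

end Vale.Agent.P209
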