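import Mathlib

/-! Explicit area-preserving maps of the plane that push the origin out of a disc. -/

namespace Vale.Agent.P209

open scoped ContDiff

noncomputable section

/-- planar area form -/
def om1 (u v : ℂ) : ℝ := u.re * v.im - u.im * v.re

/-- a smooth injective area-preserving self-map of the plane -/
structure PlanarSymp (ψ : ℂ → ℂ) : Prop where
  smooth : ContDiff ℝ ∞ ψ
  inj : Function.Injective ψ
  symp : ∀ z u v, om1 (fderiv ℝ ψ z u) (fderiv ℝ ψ z v) = om1 u v

theorem PlanarSymp.id : PlanarSymp (fun z => z) where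
  smooth := contDiff_id
  inj := fun _ _ h => h
  symp := by
    intro z u v
    simp

theorem PlanarSymp.comp {φ ψ : ℂ → ℂ} (hφ : PlanarSymp φ) (hψ : PlanarSymp ψ) :
    PlanarSymp (φ ∘ ψ) where
  smooth := hφ.smooth.comp hψ.smooth
  inj := hφ.inj.comp hψ.inj
  symp := by
    intro z u v
    have h1 : DifferentiableAt ℝ φ (ψ z) := (hφ.smooth.differentiable (by simp)) _
    have h2 : DifferentiableAt ℝ ψ z := (hψ.smooth.differentiable (by simp)) _
    rw [fderiv_comp z h1 h2]
    simp only [ContinuousLinearMap.comp_apply]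
    rw [hφ.symp, hψ.symp]

/-- twist about `c` with angle function `g` of the squared distance -/
def twist (c : ℂ) (g : ℝ → ℝ) (z : ℂ) : ℂ :=
  c + Complex.exp (Complex.I * (g (‖z - c‖ ^ 2) : ℂ)) * (z - c)

theorem norm_twist_sub (c : ℂ) (g : ℝ → ℝ) (z : ℂ) : ‖twist c g z - c‖ = ‖z - c‖ := by
  simp [twist, mul_comm Complex.I, Complex.norm_exp_ofReal_mul_I]

theorem twist_inj (c : ℂ) (g : ℝ → ℝ) : Function.Injective (twist c g) := by
  intro z w h
  have h1 : ‖z - c‖ = ‖w - c‖ := by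
    rw [← norm_twist_sub c g z, ← norm_twist_sub c g w, h]
  simp only [twist] at h
  rw [h1] at h
  have h2 := add_left_cancel h
  have h3 := mul_left_cancel₀ (Complex.exp_ne_zero _) h2
  exact sub_left_injective h3

theorem twist_contDiff (c : ℂ) {g : ℝ → ℝ} (hg : ContDiff ℝ ∞ g) : ContDiff ℝ ∞ (twist c g) := by
  have h1 : ContDiff ℝ ∞ (fun z : ℂ => ‖z - c‖ ^ 2) := (contDiff_id.sub contDiff_const).norm_sq ℝ
  have h2 : ContDiff ℝ ∞ (fun z : ℂ => (g (‖z - c‖ ^ 2) : ℂ)) :=
    Complex.ofRealCLM.contDiff.comp (hg.comp h1)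
  have h3 : ContDiff ℝ ∞ (fun z : ℂ => Complex.exp (Complex.I * (g (‖z - c‖ ^ 2) : ℂ))) :=
    (contDiff_const.mul h2).cexp
  exact contDiff_const.add (h3.mul (contDiff_id.sub contDiff_const))

theorem twist_fderiv (c : ℂ) {g : ℝ → ℝ} (hg : ContDiff ℝ ∞ g) (z u : ℂ) :
    fderiv ℝ (twist c g) z u =
      Complex.exp (Complex.I * (g (‖z - c‖ ^ 2) : ℂ)) *
        (u + Complex.I * ((deriv g (‖z - c‖ ^ 2) * (2 * ((z - c).re * u.re + (z - c).im * u.im)) : ℝ) : ℂ)
          * (z - c)) := by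
  have h0 : HasFDerivAt (fun z : ℂ => z - c) (ContinuousLinearMap.id ℝ ℂ) z :=
    (hasFDerivAt_id z).sub_const c
  have h1 := h0.norm_sq
  have hgd : HasDerivAt g (deriv g (‖z - c‖ ^ 2)) (‖z - c‖ ^ 2) :=
    ((hg.differentiable (by simp)) _).hasDerivAt
  have h2 := hgd.comp_hasFDerivAt z h1
  have h3 := Complex.ofRealCLM.hasFDerivAt.comp z h2
  have h4 := (h3.const_mul Complex.I).cexp
  have h5 := (h4.mul h0).const_add c
  have h6 : fderiv ℝ (twist c g) z = _ := h5.fderiv
  rw [h6]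
  simp [Complex.inner]
  ring

theorem twist_symp (c : ℂ) {g : ℝ → ℝ} (hg : ContDiff ℝ ∞ g) : PlanarSymp (twist c g) where
  smooth := twist_contDiff c hg
  inj := twist_inj c g
  symp := by
    intro z u v
    rw [twist_fderiv c hg, twist_fderiv c hg]
    set E := Complex.exp (Complex.I * (g (‖z - c‖ ^ 2) : ℂ)) with hE
    have hEn : E.re ^ 2 + E.im ^ 2 = 1 := by
      have : ‖E‖ = 1 := by
        rw [hE, mul_comm, Complex.norm_exp_ofReal_mul_I]
      have h2 := Complex.sq_norm E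
      rw [this, Complex.normSq_apply] at h2
      nlinarith [h2]
    generalize deriv g (‖z - c‖ ^ 2) = d
    generalize z - c = w
    simp only [om1, Complex.mul_re, Complex.mul_im, Complex.add_re, Complex.add_im, Complex.I_re,
      Complex.I_im, Complex.ofReal_re, Complex.ofReal_im]
    have key : ∀ a b x y x' y' : ℝ, a ^ 2 + b ^ 2 = 1 →
        (a * x - b * y) * (a * y' + b * x') - (a * y + b * x) * (a * x' - b * y') = x * y' - y * x' := by
      intro a b x y x' y' h
      have : (a * x - b * y) * (a * y' + b * x') - (a * y + b * x) * (a * x' - b * y')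
          = (a ^ 2 + b ^ 2) * (x * y' - y * x') := by ring
      rw [this, h, one_mul]
    rw [key _ _ _ _ _ _ hEn]
    ring

/-- the angle function: equal to `π` at `(d/2)^2` and to `0` beyond `d^2` -/
def ang (d : ℝ) (s : ℝ) : ℝ := Real.pi * Real.smoothTransition ((d ^ 2 - s) / (3 / 4 * d ^ 2))

theorem ang_contDiff (d : ℝ) : ContDiff ℝ ∞ (ang d) := by
  unfold ang
  refine contDiff_const.mul (Real.smoothTransition.contDiff.comp ?_)
  exact (contDiff_const.sub contDiff_id).div_const _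

theorem ang_half {d : ℝ} (hd : 0 < d) : ang d ((d / 2) ^ 2) = Real.pi := by
  unfold ang
  have : (d ^ 2 - (d / 2) ^ 2) / (3 / 4 * d ^ 2) = 1 := by
    field_simp
    ring
  rw [this, Real.smoothTransition.one, mul_one]

theorem ang_zero {d s : ℝ} (hd : 0 < d) (hs : d ^ 2 ≤ s) : ang d s = 0 := by
  unfold ang
  have : (d ^ 2 - s) / (3 / 4 * d ^ 2) ≤ 0 := by
    apply div_nonpos_of_nonpos_of_nonneg
    · linarith
    · positivity
  rw [Real.smoothTransition.zero_of_nonpos this, mul_zero]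

/-- the elementary step, twisting about `(j + 1/2) d` -/
def pushStep (d : ℝ) (j : ℕ) : ℂ → ℂ := twist ((((j : ℝ) + 1 / 2) * d : ℝ) : ℂ) (ang d)

/-- composition of the first `j` steps, outermost applied first -/
def push (d : ℝ) : ℕ → ℂ → ℂ
  | 0 => fun z => z
  | (j + 1) => push d j ∘ pushStep d j

theorem pushStep_symp (d : ℝ) (j : ℕ) : PlanarSymp (pushStep d j) := twist_symp _ (ang_contDiff d)

theorem push_symp (d : ℝ) (j : ℕ) : PlanarSymp (push d j) := by
  induction j with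
  | zero => exact PlanarSymp.id
  | succ j ih => exact ih.comp (pushStep_symp d j)

theorem pushStep_point {d : ℝ} (hd : 0 < d) (j : ℕ) :
    pushStep d j ((((j + 1 : ℕ) : ℝ) * d : ℝ) : ℂ) = (((j : ℝ) * d : ℝ) : ℂ) := by
  unfold pushStep twist
  have h1 : ((((j + 1 : ℕ) : ℝ) * d : ℝ) : ℂ) - ((((j : ℝ) + 1 / 2) * d : ℝ) : ℂ) = ((d / 2 : ℝ) : ℂ) := by
    push_cast
    ring
  rw [h1, Complex.norm_real, Real.norm_eq_abs, sq_abs, ang_half hd, mul_comm Complex.I,
    Complex.exp_pi_mul_I]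
  push_cast
  ring

theorem push_point {d : ℝ} (hd : 0 < d) (j : ℕ) : push d j (((j : ℝ) * d : ℝ) : ℂ) = 0 := by
  induction j with
  | zero => simp [push]
  | succ j ih =>
    simp only [push, Function.comp]
    rw [pushStep_point hd, ih]

theorem pushStep_eq_or {d : ℝ} (hd : 0 < d) (j : ℕ) (z : ℂ) :
    pushStep d j z = z ∨ ‖z - ((((j : ℝ) + 1 / 2) * d : ℝ) : ℂ)‖ < d := by
  by_cases h : d ≤ ‖z - ((((j : ℝ) + 1 / 2) * d : ℝ) : ℂ)‖
  · left
    unfold pushStep twist
    rw [ang_zero hd (by gcongr)]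
    simp
  · right
    exact not_le.mp h

theorem norm_center {d : ℝ} (hd : 0 < d) (j : ℕ) :
    ‖((((j : ℝ) + 1 / 2) * d : ℝ) : ℂ)‖ = ((j : ℝ) + 1 / 2) * d := by
  rw [Complex.norm_real, Real.norm_eq_abs, abs_of_nonneg (by positivity)]

theorem norm_pushStep_le {d : ℝ} (hd : 0 < d) (j : ℕ) (z : ℂ)
    (h : ‖z - ((((j : ℝ) + 1 / 2) * d : ℝ) : ℂ)‖ < d) :
    ‖pushStep d j z‖ ≤ ((j : ℝ) + 3 / 2) * d := by
  have h1 : ‖pushStep d j z - ((((j : ℝ) + 1 / 2) * d : ℝ) : ℂ)‖ < d := by
    unfold pushStep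
    rw [norm_twist_sub]
    exact h
  have h2 := norm_center hd j
  have h3 : ‖pushStep d j z‖ ≤ ‖pushStep d j z - ((((j : ℝ) + 1 / 2) * d : ℝ) : ℂ)‖
      + ‖((((j : ℝ) + 1 / 2) * d : ℝ) : ℂ)‖ := by
    simpa using norm_add_le (pushStep d j z - ((((j : ℝ) + 1 / 2) * d : ℝ) : ℂ))
      ((((j : ℝ) + 1 / 2) * d : ℝ) : ℂ)
  rw [h2] at h3
  linarith

theorem norm_push_le_max {d : ℝ} (hd : 0 < d) (j : ℕ) (z : ℂ) :
    ‖push d j z‖ ≤ max ‖z‖ (((j : ℝ) + 1 / 2) * d) := by
  induction j generalizing z with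
  | zero => simp [push]
  | succ j ih =>
    simp only [push, Function.comp]
    rcases pushStep_eq_or hd j z with h | h
    · rw [h]
      refine (ih z).trans (max_le_max le_rfl ?_)
      push_cast
      gcongr
      linarith
    · refine (ih _).trans (max_le ?_ ?_)
      · refine (norm_pushStep_le hd j z h).trans ?_
        refine le_trans (le_of_eq ?_) (le_max_right _ _)
        push_cast
        ring
      · refine le_trans ?_ (le_max_right _ _)
        push_cast
        gcongr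
        linarith

theorem norm_push_le {d : ℝ} (hd : 0 < d) (j : ℕ) (z : ℂ) : ‖push d j z‖ ≤ ‖z‖ + 2 * d := by
  induction j generalizing z with
  | zero => simp [push]; positivity
  | succ j ih =>
    simp only [push, Function.comp]
    rcases pushStep_eq_or hd j z with h | h
    · rw [h]
      exact ih z
    · have h1 := norm_pushStep_le hd j z h
      have h2 := norm_push_le_max hd j (pushStep d j z)
      have h3 : ‖((((j : ℝ) + 1 / 2) * d : ℝ) : ℂ)‖ - ‖z‖ ≤ ‖z - ((((j : ℝ) + 1 / 2) * d : ℝ) : ℂ)‖ := by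
        rw [norm_sub_rev]
        exact norm_sub_norm_le _ _
      rw [norm_center hd] at h3
      have h4 : ‖push d j (pushStep d j z)‖ ≤ ((j : ℝ) + 3 / 2) * d := by
        refine h2.trans (max_le h1 ?_)
        gcongr
        norm_num
      linarith

/-- For every `ρ` and `ε > 0` there is a smooth injective area-preserving map of the plane which
misses the origin on the closed disc of radius `ρ` and increases norms by at most `ε`. -/
theorem exists_push (ρ ε : ℝ) (hε : 0 < ε) :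
    ∃ ψ : ℂ → ℂ, PlanarSymp ψ ∧ (∀ z, ‖z‖ ≤ ρ → ψ z ≠ 0) ∧ ∀ z, ‖ψ z‖ ≤ ‖z‖ + ε := by
  have hd : 0 < ε / 2 := by positivity
  obtain ⟨N, hN⟩ := exists_nat_gt (ρ / (ε / 2))
  rw [div_lt_iff₀ hd] at hN
  refine ⟨push (ε / 2) N, push_symp _ _, ?_, ?_⟩
  · intro z hz h0
    have h1 := push_point hd N
    have h2 : z = (((N : ℝ) * (ε / 2) : ℝ) : ℂ) := (push_symp (ε / 2) N).inj (h0.trans h1.symm)
    have h3 : ‖z‖ = (N : ℝ) * (ε / 2) := by
      rw [h2, Complex.norm_real, Real.norm_eq_abs, abs_of_nonneg (by positivity)]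
    linarith
  · intro z
    have := norm_push_le hd N z
    linarith

end

end Vale.Agent.P209
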