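import Mathlib
import Vale.Agent.Lib.P209.Defs
import Vale.Agent.Lib.P209.Planar

/-! Integral affine symplectic maps on the torus part of `ℂ^n`. -/

namespace Vale.Agent.P209

open scoped ContDiff

noncomputable section

variable {E : Type*} [NormedAddCommGroup E] [NormedSpace ℝ E]

/-- `f` has logarithmic derivative `ℓ` at `x` -/
def HasLog (f : E → ℂ) (ℓ : E →L[ℝ] ℂ) (x : E) : Prop := HasFDerivAt f (f x • ℓ) x

theorem HasLog.mul {f g : E → ℂ} {ℓ m : E →L[ℝ] ℂ} {x : E} (hf : HasLog f ℓ x) (hg : HasLog g m x) :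
    HasLog (fun y => f y * g y) (ℓ + m) x := by
  unfold HasLog at *
  refine (HasFDerivAt.fun_mul hf hg).congr_fderiv ?_
  ext u
  simp
  ring

theorem HasLog.one (x : E) : HasLog (fun _ => (1 : ℂ)) (0 : E →L[ℝ] ℂ) x := by
  unfold HasLog
  simpa using hasFDerivAt_const (1 : ℂ) x

theorem HasLog.prod {ι : Type*} (s : Finset ι) {f : ι → E → ℂ} {ℓ : ι → E →L[ℝ] ℂ} {x : E}
    (h : ∀ i ∈ s, HasLog (f i) (ℓ i) x) :
    HasLog (fun y => ∏ i ∈ s, f i y) (∑ i ∈ s, ℓ i) x := by
  classical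
  induction s using Finset.induction_on with
  | empty => simpa using HasLog.one x
  | insert a s ha ih =>
    simp only [Finset.prod_insert ha, Finset.sum_insert ha]
    exact (h a (Finset.mem_insert_self _ _)).mul
      (ih fun i hi => h i (Finset.mem_insert_of_mem hi))

theorem HasLog.zpow {f : E → ℂ} {ℓ : E →L[ℝ] ℂ} {x : E} (hf : HasLog f ℓ x) (hx : f x ≠ 0)
    (m : ℤ) : HasLog (fun y => f y ^ m) ((m : ℂ) • ℓ) x := by
  unfold HasLog at *
  have h1 := (hasDerivAt_zpow m (f x) (Or.inl hx)).hasFDerivAt.restrictScalars ℝ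
  have h2 := h1.comp x hf
  refine h2.congr_fderiv ?_
  ext u
  simp
  rw [zpow_sub_one₀ hx]
  field_simp

theorem HasLog.sqrt {X : E → ℝ} {X' : E →L[ℝ] ℝ} {x : E} (hX : HasFDerivAt X X' x) (hx : 0 < X x) :
    HasLog (fun y => ((Real.sqrt (X y) : ℝ) : ℂ))
      (Complex.ofRealCLM.comp ((1 / (2 * X x)) • X')) x := by
  unfold HasLog
  have h1 := hX.sqrt hx.ne'
  have h2 := Complex.ofRealCLM.hasFDerivAt.comp x h1
  refine h2.congr_fderiv ?_
  ext u
  have hs : Real.sqrt (X x) ≠ 0 := (Real.sqrt_pos.mpr hx).ne'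
  have hss : Real.sqrt (X x) * Real.sqrt (X x) = X x := Real.mul_self_sqrt hx.le
  have hXx : X x ≠ 0 := hx.ne'
  have key : 1 / (2 * Real.sqrt (X x)) * X' u = Real.sqrt (X x) * (1 / (2 * X x) * X' u) := by
    field_simp
    rw [Real.sq_sqrt hx.le]
    ring
  have : (Complex.ofRealCLM.comp ((1 / (2 * Real.sqrt (X x))) • X')) u
      = ((1 / (2 * Real.sqrt (X x)) * X' u : ℝ) : ℂ) := by simp
  rw [this, key]
  simp

/-- logarithmic derivative of the angular coordinate `w ↦ w_k / |w_k|` -/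
theorem HasLog.unit {n : ℕ} (k : Fin n) {w : Fin n → ℂ} (hw : w k ≠ 0) :
    ∃ ℓ : (Fin n → ℂ) →L[ℝ] ℂ,
      (∀ u, ℓ u = Complex.I * (((u k / w k).im : ℝ) : ℂ)) ∧
      HasLog (fun y : Fin n → ℂ => y k / (‖y k‖ : ℂ)) ℓ w := by
  have hp : HasFDerivAt (fun y : Fin n → ℂ => y k)
      (ContinuousLinearMap.proj (R := ℝ) (φ := fun _ : Fin n => ℂ) k) w :=
    (ContinuousLinearMap.proj (R := ℝ) (φ := fun _ : Fin n => ℂ) k).hasFDerivAt
  have h1 : HasLog (fun y : Fin n → ℂ => y k)
      ((w k)⁻¹ • (ContinuousLinearMap.proj (R := ℝ) (φ := fun _ : Fin n => ℂ) k)) w := by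
    unfold HasLog
    refine hp.congr_fderiv ?_
    ext u
    simp [hw]
  have h2 := hp.norm_sq
  have hpos : 0 < ‖w k‖ ^ 2 := by positivity
  have h3 := HasLog.sqrt h2 hpos
  have h4 := h3.zpow (by simpa using hw) (-1)
  have h5 := h1.mul h4
  have heq : (fun y : Fin n → ℂ => y k / (‖y k‖ : ℂ))
      = fun y => y k * ((Real.sqrt (‖y k‖ ^ 2) : ℝ) : ℂ) ^ (-1 : ℤ) := by
    funext y
    rw [Real.sqrt_sq (norm_nonneg _), zpow_neg_one, div_eq_mul_inv]
  rw [← heq] at h5
  refine ⟨_, ?_, h5⟩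
  · intro u
    have hn : ((‖w k‖ ^ 2 : ℝ) : ℂ) = w k * (starRingEnd ℂ) (w k) := by
      rw [Complex.mul_conj, Complex.normSq_eq_norm_sq]
    have hre : (u k / w k).re = (w k).re * (u k).re / ‖w k‖ ^ 2 + (w k).im * (u k).im / ‖w k‖ ^ 2 := by
      rw [Complex.div_re, Complex.normSq_eq_norm_sq]
      ring
    have h6 : u k / w k = ((u k / w k).re : ℂ) + ((u k / w k).im : ℂ) * Complex.I :=
      (Complex.re_add_im _).symm
    simp [Complex.inner]
    have h7 : (w k)⁻¹ * u k = u k / w k := by ring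
    rw [h7]
    have h8 : ((‖w k‖ : ℂ) ^ 2)⁻¹ * 2⁻¹ * (2 * ((w k).re * (u k).re + (w k).im * (u k).im))
      = (((u k / w k).re : ℝ) : ℂ) := by
      rw [hre]
      push_cast
      have : (‖w k‖ : ℂ) ≠ 0 := by simpa using hw
      field_simp
    linear_combination h6 - h8

/-- moment coordinates `x_j = π |w_j|^2` -/
def moment {n : ℕ} (w : Fin n → ℂ) : Fin n → ℝ := fun j => Real.pi * ‖w j‖ ^ 2

/-- affine image of the moment coordinates under the integer matrix `A` and the shift `v` -/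
def affX {n : ℕ} (A : Matrix (Fin n) (Fin n) ℤ) (v : Fin n → ℝ) (x : Fin n → ℝ) : Fin n → ℝ :=
  fun j => (∑ k, (A j k : ℝ) * x k) + v j

/-- the torus part of the integral affine map with matrix `A` on moments, `B` on angles -/
def torusMap {n : ℕ} (A B : Matrix (Fin n) (Fin n) ℤ) (v : Fin n → ℝ) (w : Fin n → ℂ) :
    Fin n → ℂ :=
  fun j => ((Real.sqrt (affX A v (moment w) j / Real.pi) : ℝ) : ℂ) *
    ∏ k, (w k / (‖w k‖ : ℂ)) ^ (B j k)

/-- domain of the torus map -/
def torusDom {n : ℕ} (A : Matrix (Fin n) (Fin n) ℤ) (v : Fin n → ℝ) : Set (Fin n → ℂ) :=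
  {w | (∀ k, w k ≠ 0) ∧ ∀ j, 0 < affX A v (moment w) j}

theorem continuous_moment {n : ℕ} : Continuous (moment (n := n)) := by
  unfold moment
  fun_prop

theorem continuous_affX {n : ℕ} (A : Matrix (Fin n) (Fin n) ℤ) (v : Fin n → ℝ) :
    Continuous (affX A v) := by
  unfold affX
  fun_prop

theorem isOpen_torusDom {n : ℕ} (A : Matrix (Fin n) (Fin n) ℤ) (v : Fin n → ℝ) :
    IsOpen (torusDom A v) := by
  have : torusDom A v = (⋂ k, {w : Fin n → ℂ | w k ≠ 0}) ∩
      ⋂ j, {w : Fin n → ℂ | 0 < affX A v (moment w) j} := by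
    ext w
    simp [torusDom]
  rw [this]
  refine (isOpen_iInter_of_finite fun k => ?_).inter (isOpen_iInter_of_finite fun j => ?_)
  · exact isOpen_ne_fun (continuous_apply k) continuous_const
  · exact isOpen_lt continuous_const
      ((continuous_apply j).comp ((continuous_affX A v).comp continuous_moment))

theorem norm_unit {w : ℂ} (hw : w ≠ 0) : ‖w / (‖w‖ : ℂ)‖ = 1 := by
  rw [norm_div, Complex.norm_real, norm_norm, div_self (norm_ne_zero_iff.mpr hw)]

theorem norm_torusMap {n : ℕ} {A B : Matrix (Fin n) (Fin n) ℤ} {v : Fin n → ℝ} {w : Fin n → ℂ}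
    (hw : w ∈ torusDom A v) (j : Fin n) :
    ‖torusMap A B v w j‖ = Real.sqrt (affX A v (moment w) j / Real.pi) := by
  unfold torusMap
  rw [norm_mul, Complex.norm_real, Real.norm_eq_abs, abs_of_nonneg (Real.sqrt_nonneg _), norm_prod]
  have : ∀ k ∈ Finset.univ, ‖(w k / (‖w k‖ : ℂ)) ^ (B j k)‖ = 1 := by
    intro k _
    rw [norm_zpow, norm_unit (hw.1 k), one_zpow]
  rw [Finset.prod_congr rfl this]
  simp

theorem moment_torusMap {n : ℕ} {A B : Matrix (Fin n) (Fin n) ℤ} {v : Fin n → ℝ} {w : Fin n → ℂ}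
    (hw : w ∈ torusDom A v) :
    moment (torusMap A B v w) = affX A v (moment w) := by
  funext j
  unfold moment
  rw [norm_torusMap hw j, Real.sq_sqrt]
  · rw [mul_div_cancel₀]
    · rfl
    · exact Real.pi_ne_zero
  · exact (div_pos (hw.2 j) Real.pi_pos).le

theorem contDiffAt_zpow_comp {E : Type*} [NormedAddCommGroup E] [NormedSpace ℝ E] {f : E → ℂ}
    {x : E} (hf : ContDiffAt ℝ ∞ f x) (hx : f x ≠ 0) (m : ℤ) :
    ContDiffAt ℝ ∞ (fun y => f y ^ m) x := by
  cases m with
  | ofNat m => simpa using hf.pow m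
  | negSucc m =>
    simp only [zpow_negSucc]
    exact (hf.pow (m + 1)).inv (pow_ne_zero _ hx)

theorem contDiff_moment {n : ℕ} (j : Fin n) : ContDiff ℝ ∞ (fun w : Fin n → ℂ => moment w j) := by
  unfold moment
  exact contDiff_const.mul ((contDiff_apply ℝ ℂ j).norm_sq ℝ)

theorem contDiff_affX {n : ℕ} (A : Matrix (Fin n) (Fin n) ℤ) (v : Fin n → ℝ) (j : Fin n) :
    ContDiff ℝ ∞ (fun w : Fin n → ℂ => affX A v (moment w) j) := by
  unfold affX
  exact (ContDiff.sum fun k _ => contDiff_const.mul (contDiff_moment k)).add contDiff_const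

theorem contDiffAt_torusMap {n : ℕ} {A B : Matrix (Fin n) (Fin n) ℤ} {v : Fin n → ℝ}
    {w : Fin n → ℂ} (hw : w ∈ torusDom A v) : ContDiffAt ℝ ∞ (torusMap A B v) w := by
  rw [contDiffAt_pi]
  intro j
  unfold torusMap
  have hpos : affX A v (moment w) j / Real.pi ≠ 0 := (div_pos (hw.2 j) Real.pi_pos).ne'
  have h1 : ContDiffAt ℝ ∞ (fun w : Fin n → ℂ => Real.sqrt (affX A v (moment w) j / Real.pi)) w :=
    ((contDiff_affX A v j).div_const _).contDiffAt.sqrt hpos
  have h2 : ContDiffAt ℝ ∞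
      (fun w : Fin n → ℂ => ((Real.sqrt (affX A v (moment w) j / Real.pi) : ℝ) : ℂ)) w :=
    Complex.ofRealCLM.contDiff.contDiffAt.comp w h1
  refine h2.mul ?_
  refine contDiffAt_prod fun k _ => ?_
  refine contDiffAt_zpow_comp ?_ ?_ _
  · simp only [div_eq_mul_inv]
    refine ContDiffAt.mul (contDiff_apply ℝ ℂ k).contDiffAt (ContDiffAt.inv ?_ ?_)
    · exact Complex.ofRealCLM.contDiff.contDiffAt.comp w
        ((contDiff_apply ℝ ℂ k).contDiffAt.norm ℝ (hw.1 k))
    · simpa using hw.1 k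
  · rw [← norm_ne_zero_iff, norm_unit (hw.1 k)]
    exact one_ne_zero

theorem om1_mul (z a b : ℂ) : om1 (z * a) (z * b) = ‖z‖ ^ 2 * om1 a b := by
  rw [← Complex.normSq_eq_norm_sq, Complex.normSq_apply]
  simp only [om1, Complex.mul_re, Complex.mul_im]
  ring

/-- the derivative of the torus map in logarithmic form -/
theorem hasFDerivAt_torusMap {n : ℕ} {A B : Matrix (Fin n) (Fin n) ℤ} {v : Fin n → ℝ}
    {w : Fin n → ℂ} (hw : w ∈ torusDom A v) (j : Fin n) :
    ∃ ℓ : (Fin n → ℂ) →L[ℝ] ℂ,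
      (∀ u, ℓ u = (((∑ k, (A j k : ℝ) * (Real.pi * (2 * ((w k).re * (u k).re + (w k).im * (u k).im))))
          / (2 * affX A v (moment w) j) : ℝ) : ℂ)
        + Complex.I * ((∑ k, (B j k : ℝ) * (u k / w k).im : ℝ) : ℂ)) ∧
      HasLog (fun y => torusMap A B v y j) ℓ w := by
  classical
  choose L hL1 hL2 using fun k => HasLog.unit k (hw.1 k)
  have hu0 : ∀ k, w k / (‖w k‖ : ℂ) ≠ 0 := by
    intro k
    rw [← norm_ne_zero_iff, norm_unit (hw.1 k)]
    exact one_ne_zero
  have h1 := HasLog.prod Finset.univ (x := w) (fun k _ => (hL2 k).zpow (hu0 k) (B j k))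
  have hX : HasFDerivAt (fun w : Fin n → ℂ => affX A v (moment w) j / Real.pi)
      (((1 / Real.pi) • ∑ k, (A j k : ℝ) • (Real.pi • (2 • (innerSL ℝ (w k)).comp
        (ContinuousLinearMap.proj (R := ℝ) (φ := fun _ : Fin n => ℂ) k))))) w := by
    have hp : ∀ k, HasFDerivAt (fun y : Fin n → ℂ => y k)
      (ContinuousLinearMap.proj (R := ℝ) (φ := fun _ : Fin n => ℂ) k) w := fun k =>
      (ContinuousLinearMap.proj (R := ℝ) (φ := fun _ : Fin n => ℂ) k).hasFDerivAt
    have h2 : HasFDerivAt (fun w : Fin n → ℂ => affX A v (moment w) j)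
        (∑ k, (A j k : ℝ) • (Real.pi • (2 • (innerSL ℝ (w k)).comp
        (ContinuousLinearMap.proj (R := ℝ) (φ := fun _ : Fin n => ℂ) k)))) w := by
      unfold affX moment
      refine HasFDerivAt.add_const _ ?_
      refine HasFDerivAt.fun_sum fun k _ => ?_
      exact (((hp k).norm_sq).const_mul _).const_mul _
    have h3 := h2.const_mul (1 / Real.pi)
    refine h3.congr_of_eventuallyEq (Filter.Eventually.of_forall fun y => ?_)
    simp only
    ring
  have hpos : 0 < affX A v (moment w) j / Real.pi := div_pos (hw.2 j) Real.pi_pos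
  have h4 := HasLog.sqrt hX hpos
  have h5 := h4.mul h1
  refine ⟨_, ?_, h5⟩
  intro u
  simp only [add_apply, ContinuousLinearMap.comp_apply,
    Complex.ofRealCLM_apply]
  congr 1
  · congr 1
    simp [Complex.inner]
    have hpi := Real.pi_ne_zero
    have hx := (hw.2 j).ne'
    field_simp
    refine Finset.sum_congr rfl fun k _ => ?_
    ring
  · simp [hL1]
    rw [Finset.mul_sum]
    refine Finset.sum_congr rfl fun k _ => ?_
    ring

theorem fderiv_torusMap {n : ℕ} {A B : Matrix (Fin n) (Fin n) ℤ} {v : Fin n → ℝ}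
    {w : Fin n → ℂ} (hw : w ∈ torusDom A v) (u : Fin n → ℂ) (j : Fin n) :
    fderiv ℝ (torusMap A B v) w u j = torusMap A B v w j *
      ((((∑ k, (A j k : ℝ) * (Real.pi * (2 * ((w k).re * (u k).re + (w k).im * (u k).im))))
          / (2 * affX A v (moment w) j) : ℝ) : ℂ)
        + Complex.I * ((∑ k, (B j k : ℝ) * (u k / w k).im : ℝ) : ℂ)) := by
  choose L hL1 hL2 using fun j => hasFDerivAt_torusMap (B := B) hw j
  have h : HasFDerivAt (torusMap A B v)
      (ContinuousLinearMap.pi fun j => (torusMap A B v w j) • L j) w := by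
    rw [hasFDerivAt_pi]
    intro j
    exact hL2 j
  rw [h.fderiv]
  simp only [ContinuousLinearMap.coe_pi']
  rw [← hL1 j u]
  rfl

theorem sum_AB {n : ℕ} {A B : Matrix (Fin n) (Fin n) ℤ} (hAB : A.transpose * B = 1)
    (a b : Fin n → ℝ) :
    ∑ j, (∑ k, (A j k : ℝ) * a k) * (∑ l, (B j l : ℝ) * b l) = ∑ k, a k * b k := by
  have h : ∀ k l, ∑ j, (A j k : ℝ) * (B j l : ℝ) = if k = l then 1 else 0 := by
    intro k l
    have := congrFun (congrFun hAB k) l
    rw [Matrix.mul_apply, Matrix.one_apply] at this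
    simp only [Matrix.transpose_apply] at this
    have h2 : ((∑ j, A j k * B j l : ℤ) : ℝ) = ((if k = l then 1 else 0 : ℤ) : ℝ) := by
      rw [this]
    push_cast at h2
    exact h2
  calc ∑ j, (∑ k, (A j k : ℝ) * a k) * (∑ l, (B j l : ℝ) * b l)
      = ∑ j, ∑ k, ∑ l, ((A j k : ℝ) * (B j l : ℝ)) * (a k * b l) := by
        refine Finset.sum_congr rfl fun j _ => ?_
        rw [Finset.sum_mul_sum]
        refine Finset.sum_congr rfl fun k _ => Finset.sum_congr rfl fun l _ => ?_
        ring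
    _ = ∑ k, ∑ l, (∑ j, (A j k : ℝ) * (B j l : ℝ)) * (a k * b l) := by
        rw [Finset.sum_comm]
        refine Finset.sum_congr rfl fun k _ => ?_
        rw [Finset.sum_comm]
        refine Finset.sum_congr rfl fun l _ => ?_
        rw [Finset.sum_mul]
    _ = ∑ k, a k * b k := by
        refine Finset.sum_congr rfl fun k _ => ?_
        simp [h]

theorem omega0_eq {n : ℕ} (u v : Fin n → ℂ) : omega0 u v = ∑ j, om1 (u j) (v j) := rfl

theorem om1_polar {w : ℂ} (hw : w ≠ 0) (u v : ℂ) :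
    (w.re * u.re + w.im * u.im) * (v / w).im - (u / w).im * (w.re * v.re + w.im * v.im)
      = om1 u v := by
  have hn : Complex.normSq w ≠ 0 := by simpa using hw
  rw [Complex.div_im, Complex.div_im]
  unfold om1
  field_simp
  rw [Complex.normSq_apply]
  ring

theorem omega0_torusMap {n : ℕ} {A B : Matrix (Fin n) (Fin n) ℤ} (hAB : A.transpose * B = 1)
    {v : Fin n → ℝ} {w : Fin n → ℂ} (hw : w ∈ torusDom A v) (a b : Fin n → ℂ) :
    omega0 (fderiv ℝ (torusMap A B v) w a) (fderiv ℝ (torusMap A B v) w b) = omega0 a b := by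
  rw [omega0_eq, omega0_eq]
  set p : (Fin n → ℂ) → Fin n → ℝ := fun u k => (w k).re * (u k).re + (w k).im * (u k).im with hp
  set q : (Fin n → ℂ) → Fin n → ℝ := fun u k => (u k / w k).im with hq
  have key : ∀ j, om1 (fderiv ℝ (torusMap A B v) w a j) (fderiv ℝ (torusMap A B v) w b j)
      = (∑ k, (A j k : ℝ) * p a k) * (∑ l, (B j l : ℝ) * q b l)
        - (∑ k, (A j k : ℝ) * p b k) * (∑ l, (B j l : ℝ) * q a l) := by
    intro j
    rw [fderiv_torusMap hw, fderiv_torusMap hw, om1_mul, norm_torusMap hw,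
      Real.sq_sqrt (div_pos (hw.2 j) Real.pi_pos).le]
    have hX := (hw.2 j).ne'
    have hpi := Real.pi_ne_zero
    have e : ∀ u : Fin n → ℂ,
        (∑ k, (A j k : ℝ) * (Real.pi * (2 * ((w k).re * (u k).re + (w k).im * (u k).im))))
          / (2 * affX A v (moment w) j)
        = (Real.pi / affX A v (moment w) j) * ∑ k, (A j k : ℝ) * p u k := by
      intro u
      have : ∑ k, (A j k : ℝ) * (Real.pi * (2 * ((w k).re * (u k).re + (w k).im * (u k).im)))
        = (2 * Real.pi) * ∑ k, (A j k : ℝ) * p u k := by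
        rw [Finset.mul_sum]
        refine Finset.sum_congr rfl fun k _ => ?_
        simp only [hp]
        ring
      rw [this]
      field_simp
    rw [e a, e b]
    generalize (∑ k, (A j k : ℝ) * p a k) = Pa
    generalize (∑ k, (A j k : ℝ) * p b k) = Pb
    change _ / _ * om1 (_ + Complex.I * ((∑ k, (B j k : ℝ) * q a k : ℝ) : ℂ))
      (_ + Complex.I * ((∑ k, (B j k : ℝ) * q b k : ℝ) : ℂ)) = _
    generalize (∑ k, (B j k : ℝ) * q a k) = Qa
    generalize (∑ k, (B j k : ℝ) * q b k) = Qb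
    simp only [om1, Complex.add_re, Complex.add_im, Complex.mul_re, Complex.mul_im, Complex.I_re,
      Complex.I_im, Complex.ofReal_re, Complex.ofReal_im]
    field_simp
    ring
  rw [Finset.sum_congr rfl fun j _ => key j, Finset.sum_sub_distrib, sum_AB hAB, sum_AB hAB,
    ← Finset.sum_sub_distrib]
  refine Finset.sum_congr rfl fun k _ => ?_
  rw [← om1_polar (hw.1 k) (a k) (b k)]
  simp only [hp, hq]
  ring

theorem sum_BA {n : ℕ} {A B : Matrix (Fin n) (Fin n) ℤ} (hAB : A.transpose * B = 1) (k l : Fin n) :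
    ∑ j, B j k * A j l = if k = l then 1 else 0 := by
  have h1 : B.transpose * A = 1 := by
    have := congrArg Matrix.transpose hAB
    rwa [Matrix.transpose_mul, Matrix.transpose_transpose, Matrix.transpose_one] at this
  have := congrFun (congrFun h1 k) l
  rw [Matrix.mul_apply, Matrix.one_apply] at this
  simpa only [Matrix.transpose_apply] using this

theorem affX_inj {n : ℕ} {A B : Matrix (Fin n) (Fin n) ℤ} (hAB : A.transpose * B = 1)
    (v : Fin n → ℝ) : Function.Injective (affX A v) := by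
  intro x y h
  funext k
  have h1 : ∀ j, ∑ l, (A j l : ℝ) * x l = ∑ l, (A j l : ℝ) * y l := by
    intro j
    have := congrFun h j
    simpa [affX] using this
  have h2 : ∀ x : Fin n → ℝ, ∑ j, (B j k : ℝ) * ∑ l, (A j l : ℝ) * x l = x k := by
    intro x
    have h3 : ∀ l, ∑ j, (B j k : ℝ) * (A j l : ℝ) = if k = l then 1 else 0 := by
      intro l
      have h4 : ((∑ j, B j k * A j l : ℤ) : ℝ) = ((if k = l then 1 else 0 : ℤ) : ℝ) := by
        rw [sum_BA hAB]
      push_cast at h4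
      exact h4
    calc ∑ j, (B j k : ℝ) * ∑ l, (A j l : ℝ) * x l
        = ∑ l, (∑ j, (B j k : ℝ) * (A j l : ℝ)) * x l := by
          simp only [Finset.mul_sum, Finset.sum_mul]
          rw [Finset.sum_comm]
          refine Finset.sum_congr rfl fun l _ => Finset.sum_congr rfl fun j _ => ?_
          ring
      _ = x k := by simp [h3]
  rw [← h2 x, ← h2 y]
  exact Finset.sum_congr rfl fun j _ => by rw [h1 j]

theorem prod_recover {n : ℕ} {A B : Matrix (Fin n) (Fin n) ℤ} (hAB : A.transpose * B = 1)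
    (u : Fin n → ℂ) (hu : ∀ k, u k ≠ 0) (l : Fin n) :
    ∏ j, (∏ k, u k ^ B j k) ^ A j l = u l := by
  calc ∏ j, (∏ k, u k ^ B j k) ^ A j l
      = ∏ j, ∏ k, u k ^ (B j k * A j l) := by
        refine Finset.prod_congr rfl fun j _ => ?_
        rw [← Finset.prod_zpow]
        refine Finset.prod_congr rfl fun k _ => ?_
        rw [zpow_mul]
    _ = ∏ k, ∏ j, u k ^ (B j k * A j l) := Finset.prod_comm
    _ = ∏ k, u k ^ (∑ j, B j k * A j l) := by
        refine Finset.prod_congr rfl fun k _ => ?_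
        have : ∀ s : Finset (Fin n), ∏ j ∈ s, u k ^ (B j k * A j l)
            = u k ^ (∑ j ∈ s, B j k * A j l) := by
          intro s
          classical
          induction s using Finset.induction_on with
          | empty => simp
          | insert a s ha ih =>
            rw [Finset.prod_insert ha, Finset.sum_insert ha, ih, zpow_add₀ (hu k)]
        exact this _
    _ = u l := by
        simp only [sum_BA hAB]
        rw [Finset.prod_eq_single l]
        · simp
        · intro b _ hb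
          simp [hb]
        · simp

theorem torusMap_injOn {n : ℕ} {A B : Matrix (Fin n) (Fin n) ℤ} (hAB : A.transpose * B = 1)
    (v : Fin n → ℝ) : Set.InjOn (torusMap A B v) (torusDom A v) := by
  intro w hw w' hw' h
  have h1 : moment w = moment w' := by
    apply affX_inj hAB v
    rw [← moment_torusMap (B := B) hw, ← moment_torusMap (B := B) hw', h]
  have h2 : ∀ k, ‖w k‖ = ‖w' k‖ := by
    intro k
    have h3 := congrFun h1 k
    unfold moment at h3
    have h4 : ‖w k‖ ^ 2 = ‖w' k‖ ^ 2 := mul_left_cancel₀ Real.pi_ne_zero h3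
    have h5 := abs_eq_abs.mpr (sq_eq_sq_iff_eq_or_eq_neg.mp h4)
    rwa [abs_of_nonneg (norm_nonneg _), abs_of_nonneg (norm_nonneg _)] at h5
  have h3 : ∀ j, ∏ k, (w k / (‖w k‖ : ℂ)) ^ (B j k) = ∏ k, (w' k / (‖w' k‖ : ℂ)) ^ (B j k) := by
    intro j
    have h4 := congrFun h j
    unfold torusMap at h4
    rw [h1] at h4
    refine mul_left_cancel₀ ?_ h4
    rw [Complex.ofReal_ne_zero]
    exact (Real.sqrt_pos.mpr (div_pos (hw'.2 j) Real.pi_pos)).ne'
  have hu : ∀ {w : Fin n → ℂ}, w ∈ torusDom A v → ∀ k, w k / (‖w k‖ : ℂ) ≠ 0 := by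
    intro w hw k
    rw [← norm_ne_zero_iff, norm_unit (hw.1 k)]
    exact one_ne_zero
  funext l
  have h4 := prod_recover hAB (fun k => w k / (‖w k‖ : ℂ)) (hu hw) l
  have h5 := prod_recover hAB (fun k => w' k / (‖w' k‖ : ℂ)) (hu hw') l
  simp only [h3] at h4
  rw [h4] at h5
  rw [h2 l] at h5
  have h6 : ((‖w' l‖ : ℝ) : ℂ) ≠ 0 := by simpa using hw'.1 l
  exact (div_left_inj' h6).mp h5

theorem omega0_nondeg {n : ℕ} {u : Fin n → ℂ} (h : ∀ v, omega0 u v = 0) : u = 0 := by
  classical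
  funext j
  apply Complex.ext
  · have := h (Pi.single j Complex.I)
    rw [omega0, Finset.sum_eq_single j] at this
    · simpa using this
    · intro b _ hb
      simp [Pi.single_apply, hb]
    · simp
  · have := h (Pi.single j 1)
    rw [omega0, Finset.sum_eq_single j] at this
    · simpa using this
    · intro b _ hb
      simp [Pi.single_apply, hb]
    · simp

theorem isEmbedding_of_symp {n : ℕ} {U : Set (Fin n → ℂ)} (hU : IsOpen U)
    {φ : (Fin n → ℂ) → (Fin n → ℂ)} (hφ : ContDiffOn ℝ ∞ φ U) (hinj : Set.InjOn φ U)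
    (hs : ∀ z ∈ U, ∀ u v : Fin n → ℂ, omega0 (fderiv ℝ φ z u) (fderiv ℝ φ z v) = omega0 u v) :
    Topology.IsEmbedding (U.domRestrict φ) := by
  refine (Topology.IsOpenEmbedding.of_continuous_injective_isOpenMap ?_ ?_ ?_).isEmbedding
  · exact continuousOn_iff_continuous_domRestrict.mp hφ.continuousOn
  · exact Set.injOn_iff_injective.mp hinj
  · rw [isOpenMap_iff_nhds_le]
    rintro ⟨z, hz⟩
    have hcd : ContDiffAt ℝ ∞ φ z := hφ.contDiffAt (hU.mem_nhds hz)
    have hst : HasStrictFDerivAt φ (fderiv ℝ φ z) z := hcd.hasStrictFDerivAt (by simp)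
    have hker : Function.Injective (fderiv ℝ φ z) := by
      rw [injective_iff_map_eq_zero]
      intro u hu
      apply omega0_nondeg
      intro v
      rw [← hs z hz u v, hu]
      simp [omega0]
    have hsurj : Function.Surjective (fderiv ℝ φ z) :=
      LinearMap.injective_iff_surjective (f := (fderiv ℝ φ z : (Fin n → ℂ) →ₗ[ℝ] (Fin n → ℂ))).mp hker
    have hmap := hst.map_nhds_eq_of_surj (LinearMap.range_eq_top.mpr hsurj)
    change nhds (φ z) ≤ Filter.map (φ ∘ Subtype.val) (nhds (⟨z, hz⟩ : U))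
    rw [← Filter.map_map, map_nhds_subtype_coe_eq_nhds hz (hU.mem_nhds hz), hmap]

end

end Vale.Agent.P209
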