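import Mathlib
import Vale.Agent.Lib.P209.Torus

/-! Embedding a ball in the preimage of an integral affine simplex. -/

namespace Vale.Agent.P209

open scoped ContDiff

noncomputable section

/-- product of `n` copies of a planar map -/
def prodMap (n : ℕ) (ψ : ℂ → ℂ) (z : Fin n → ℂ) : Fin n → ℂ := fun j => ψ (z j)

theorem prodMap_contDiff (n : ℕ) {ψ : ℂ → ℂ} (h : PlanarSymp ψ) : ContDiff ℝ ∞ (prodMap n ψ) := by
  rw [contDiff_pi]
  intro j
  exact h.smooth.comp (contDiff_apply ℝ ℂ j)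

theorem prodMap_inj (n : ℕ) {ψ : ℂ → ℂ} (h : PlanarSymp ψ) : Function.Injective (prodMap n ψ) := by
  intro z w hzw
  funext j
  exact h.inj (congrFun hzw j)

theorem fderiv_prodMap (n : ℕ) {ψ : ℂ → ℂ} (h : PlanarSymp ψ) (z u : Fin n → ℂ) (j : Fin n) :
    fderiv ℝ (prodMap n ψ) z u j = fderiv ℝ ψ (z j) (u j) := by
  have hd : ∀ j, HasFDerivAt (fun z : Fin n → ℂ => ψ (z j))
      ((fderiv ℝ ψ (z j)).comp
        (ContinuousLinearMap.proj (R := ℝ) (φ := fun _ : Fin n => ℂ) j)) z := by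
    intro j
    have h1 : HasFDerivAt ψ (fderiv ℝ ψ (z j)) (z j) :=
      ((h.smooth.differentiable (by simp)) _).hasFDerivAt
    exact h1.comp z (ContinuousLinearMap.proj (R := ℝ) (φ := fun _ : Fin n => ℂ) j).hasFDerivAt
  have h2 : HasFDerivAt (prodMap n ψ) (ContinuousLinearMap.pi fun j => ((fderiv ℝ ψ (z j)).comp
        (ContinuousLinearMap.proj (R := ℝ) (φ := fun _ : Fin n => ℂ) j))) z := by
    rw [hasFDerivAt_pi]
    exact hd
  rw [h2.fderiv]
  rfl

theorem omega0_prodMap (n : ℕ) {ψ : ℂ → ℂ} (h : PlanarSymp ψ) (z u v : Fin n → ℂ) :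
    omega0 (fderiv ℝ (prodMap n ψ) z u) (fderiv ℝ (prodMap n ψ) z v) = omega0 u v := by
  rw [omega0_eq, omega0_eq]
  refine Finset.sum_congr rfl fun j _ => ?_
  rw [fderiv_prodMap n h, fderiv_prodMap n h, h.symp]

theorem exists_eps {n : ℕ} {r r' : ℝ} (hr : 0 < r) (hrr : r < r') :
    ∃ ρ ε : ℝ, 0 < ε ∧ (∀ z ∈ closedBallCap n r, ∀ j, ‖z j‖ ≤ ρ) ∧
      ∀ z ∈ closedBallCap n r, Real.pi * ∑ j, (‖z j‖ + ε) ^ 2 < r' := by
  have hpi := Real.pi_pos
  set ρ := Real.sqrt (r / Real.pi) with hρ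
  have hρ0 : 0 ≤ ρ := Real.sqrt_nonneg _
  have hb : ∀ z ∈ closedBallCap n r, ∀ j, ‖z j‖ ≤ ρ := by
    intro z hz j
    apply Real.le_sqrt_of_sq_le
    rw [le_div_iff₀ hpi, mul_comm]
    refine le_trans ?_ hz
    gcongr
    exact Finset.single_le_sum (f := fun j => ‖z j‖ ^ 2) (fun i _ => by positivity)
      (Finset.mem_univ j)
  set C := Real.pi * ((n : ℝ) + 1) * (2 * ρ + 1) with hC
  have hC0 : 0 < C := by positivity
  refine ⟨ρ, min 1 ((r' - r) / (2 * C)), lt_min one_pos (div_pos (by linarith) (by positivity)), hb, ?_⟩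
  intro z hz
  set ε := min 1 ((r' - r) / (2 * C)) with hε
  have hε0 : 0 < ε := lt_min one_pos (div_pos (by linarith) (by positivity))
  have hε1 : ε ≤ 1 := min_le_left _ _
  have hε2 : ε ≤ (r' - r) / (2 * C) := min_le_right _ _
  have h1 : ∀ j, (‖z j‖ + ε) ^ 2 ≤ ‖z j‖ ^ 2 + (2 * ρ + 1) * ε := by
    intro j
    have h2 := hb z hz j
    have h3 : 0 ≤ ‖z j‖ := norm_nonneg _
    nlinarith
  have h2 : Real.pi * ∑ j, (‖z j‖ + ε) ^ 2 ≤ r + Real.pi * (n * ((2 * ρ + 1) * ε)) := by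
    calc Real.pi * ∑ j, (‖z j‖ + ε) ^ 2 ≤ Real.pi * ∑ j, (‖z j‖ ^ 2 + (2 * ρ + 1) * ε) := by
          gcongr with j _
          exact h1 j
      _ = Real.pi * ∑ j, ‖z j‖ ^ 2 + Real.pi * (n * ((2 * ρ + 1) * ε)) := by
          rw [Finset.sum_add_distrib]
          simp
          ring
      _ ≤ r + Real.pi * (n * ((2 * ρ + 1) * ε)) := by
          gcongr
          exact hz
  have h3 : Real.pi * (n * ((2 * ρ + 1) * ε)) ≤ C * ε := by
    rw [hC]
    have : (n : ℝ) * ((2 * ρ + 1) * ε) ≤ ((n : ℝ) + 1) * ((2 * ρ + 1) * ε) := by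
      gcongr
      linarith
    nlinarith
  have h4 : C * ε ≤ (r' - r) / 2 := by
    calc C * ε ≤ C * ((r' - r) / (2 * C)) := by gcongr
      _ = (r' - r) / 2 := by field_simp
  linarith

/-- A closed ball of capacity `r < r'` embeds symplectically with moment image in an integral affine
image of the open simplex of size `r'`. -/
theorem ball_to_simplex {n : ℕ} {A B : Matrix (Fin n) (Fin n) ℤ} (hAB : A.transpose * B = 1)
    (v : Fin n → ℝ) {r r' : ℝ} (hr : 0 < r) (hrr : r < r')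
    (hpos : ∀ x : Fin n → ℝ, (∀ j, 0 < x j) → ∑ j, x j < r' → ∀ j, 0 < affX A v x j) :
    ∃ φ : (Fin n → ℂ) → (Fin n → ℂ), IsSymplecticEmbedding (closedBallCap n r) φ ∧
      ∀ z ∈ closedBallCap n r, ∃ x : Fin n → ℝ, (∀ j, 0 < x j) ∧ ∑ j, x j < r' ∧
        moment (φ z) = affX A v x := by
  obtain ⟨ρ, ε, hε, hb, hs⟩ := exists_eps (n := n) hr hrr
  obtain ⟨ψ, hψ, hψ0, hψn⟩ := exists_push ρ ε hε
  set Ψ := prodMap n ψ with hΨ
  have hΨc : ContDiff ℝ ∞ Ψ := prodMap_contDiff n hψ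
  set V : Set (Fin n → ℂ) := {w | (∀ k, w k ≠ 0) ∧ ∑ j, moment w j < r'} with hV
  have hVo : IsOpen V := by
    have : V = (⋂ k, {w : Fin n → ℂ | w k ≠ 0}) ∩ {w : Fin n → ℂ | ∑ j, moment w j < r'} := by
      ext w
      simp [hV]
    rw [this]
    refine (isOpen_iInter_of_finite fun k => ?_).inter ?_
    · exact isOpen_ne_fun (continuous_apply k) continuous_const
    · refine isOpen_lt ?_ continuous_const
      exact continuous_finsetSum _ fun j _ => (continuous_apply j).comp continuous_moment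
  have hmpos : ∀ w ∈ V, ∀ j, 0 < moment w j := by
    intro w hw j
    unfold moment
    have := norm_pos_iff.mpr (hw.1 j)
    have := Real.pi_pos
    positivity
  have hVD : V ⊆ torusDom A v := by
    intro w hw
    exact ⟨hw.1, hpos (moment w) (hmpos w hw) hw.2⟩
  set U : Set (Fin n → ℂ) := Ψ ⁻¹' V with hUdef
  have hUo : IsOpen U := hVo.preimage hΨc.continuous
  have hKU : closedBallCap n r ⊆ U := by
    intro z hz
    refine ⟨fun k => hψ0 _ (hb z hz k), ?_⟩
    refine lt_of_le_of_lt ?_ (hs z hz)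
    unfold moment
    rw [← Finset.mul_sum]
    have := Real.pi_pos
    gcongr with j _
    exact hψn _
  set φ : (Fin n → ℂ) → (Fin n → ℂ) := fun z => torusMap A B v (Ψ z) with hφ
  have hφat : ∀ z ∈ U, ContDiffAt ℝ ∞ φ z := by
    intro z hz
    exact (contDiffAt_torusMap (B := B) (hVD hz)).comp z hΨc.contDiffAt
  have hφc : ContDiffOn ℝ ∞ φ U := fun z hz => (hφat z hz).contDiffWithinAt
  have hφi : Set.InjOn φ U := by
    intro z hz z' hz' h
    exact prodMap_inj n hψ (torusMap_injOn hAB v (hVD hz) (hVD hz') h)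
  have hφs : ∀ z ∈ U, ∀ a b : Fin n → ℂ,
      omega0 (fderiv ℝ φ z a) (fderiv ℝ φ z b) = omega0 a b := by
    intro z hz a b
    have h1 : DifferentiableAt ℝ (torusMap A B v) (Ψ z) :=
      (contDiffAt_torusMap (hVD hz)).differentiableAt (by simp)
    have h2 : DifferentiableAt ℝ Ψ z := hΨc.contDiffAt.differentiableAt (by simp)
    have h3 : fderiv ℝ φ z = (fderiv ℝ (torusMap A B v) (Ψ z)).comp (fderiv ℝ Ψ z) :=
      fderiv_comp z h1 h2
    rw [h3]
    simp only [ContinuousLinearMap.comp_apply]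
    rw [omega0_torusMap hAB (hVD hz), omega0_prodMap n hψ]
  refine ⟨φ, ⟨U, hUo, hKU, hφc, isEmbedding_of_symp hUo hφc hφi hφs, hφs⟩, ?_⟩
  intro z hz
  have hzV : Ψ z ∈ V := hKU hz
  exact ⟨moment (Ψ z), hmpos _ hzV, hzV.2, moment_torusMap (hVD hzV)⟩

end

end Vale.Agent.P209
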