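import Mathlib
import Vale.Agent.Lib.P209.Embed

/-! Toric packings: reduction of ball packings to packings of simplices. -/

namespace Vale.Agent.P209

open scoped ContDiff

noncomputable section

/-- open simplex of size `r` -/
def osimp (n : ℕ) (r : ℝ) : Set (Fin n → ℝ) := {x | (∀ j, 0 < x j) ∧ ∑ j, x j < r}

/-- integral affine packing of open simplices of sizes `r i` in `S` -/
def TP {n : ℕ} {ι : Type} (S : Set (Fin n → ℝ)) (r : ι → ℝ) : Prop :=
  ∃ (A B : ι → Matrix (Fin n) (Fin n) ℤ) (v : ι → Fin n → ℝ),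
    (∀ i, (A i).transpose * (B i) = 1) ∧
    (∀ i, ∀ x ∈ osimp n (r i), affX (A i) (v i) x ∈ S) ∧
    (∀ i j, i ≠ j → ∀ x ∈ osimp n (r i), ∀ y ∈ osimp n (r j),
      affX (A i) (v i) x ≠ affX (A j) (v j) y)

theorem TP.ballsEmbed {n k : ℕ} {R : ℝ} {r r' : Fin k → ℝ} (h : TP (osimp n R) r')
    (hr : ∀ i, 0 < r i) (hrr : ∀ i, r i < r' i) : BallsEmbed n k r R := by
  obtain ⟨A, B, v, hAB, hS, hd⟩ := h
  have h1 : ∀ i, ∃ φ : (Fin n → ℂ) → (Fin n → ℂ),
      IsSymplecticEmbedding (closedBallCap n (r i)) φ ∧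
      ∀ z ∈ closedBallCap n (r i), ∃ x : Fin n → ℝ, (∀ j, 0 < x j) ∧ ∑ j, x j < r' i ∧
        moment (φ z) = affX (A i) (v i) x := by
    intro i
    exact ball_to_simplex (hAB i) (v i) (hr i) (hrr i) (fun x hx hs => (hS i x ⟨hx, hs⟩).1)
  choose φ hφ1 hφ2 using h1
  refine ⟨φ, hφ1, ?_, ?_⟩
  · rintro i _ ⟨z, hz, rfl⟩
    obtain ⟨x, hx1, hx2, hx3⟩ := hφ2 i z hz
    have h2 := (hS i x ⟨hx1, hx2⟩).2
    rw [← hx3] at h2
    unfold moment at h2
    rwa [← Finset.mul_sum] at h2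
  · intro i j hij
    rw [Set.disjoint_left]
    rintro _ ⟨z, hz, rfl⟩ ⟨z', hz', h⟩
    obtain ⟨x, hx1, hx2, hx3⟩ := hφ2 i z hz
    obtain ⟨y, hy1, hy2, hy3⟩ := hφ2 j z' hz'
    refine hd i j hij x ⟨hx1, hx2⟩ y ⟨hy1, hy2⟩ ?_
    rw [← hx3, ← hy3, h]

theorem osimp_mono {n : ℕ} {r r' : ℝ} (h : r ≤ r') : osimp n r ⊆ osimp n r' :=
  fun _ hx => ⟨hx.1, lt_of_lt_of_le hx.2 h⟩

theorem TP.mono {n : ℕ} {ι : Type} {S S' : Set (Fin n → ℝ)} {r r' : ι → ℝ} (h : TP S r)
    (hS : S ⊆ S') (hr : ∀ i, r' i ≤ r i) : TP S' r' := by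
  obtain ⟨A, B, v, hAB, h1, h2⟩ := h
  exact ⟨A, B, v, hAB, fun i x hx => hS (h1 i x (osimp_mono (hr i) hx)),
    fun i j hij x hx y hy => h2 i j hij x (osimp_mono (hr i) hx) y (osimp_mono (hr j) hy)⟩

theorem TP.reindex {n : ℕ} {ι κ : Type} {S : Set (Fin n → ℝ)} {r : ι → ℝ} (h : TP S r)
    {f : κ → ι} (hf : Function.Injective f) : TP S (fun k => r (f k)) := by
  obtain ⟨A, B, v, hAB, h1, h2⟩ := h
  exact ⟨fun k => A (f k), fun k => B (f k), fun k => v (f k), fun k => hAB _,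
    fun k x hx => h1 _ x hx, fun i j hij x hx y hy => h2 _ _ (hf.ne hij) x hx y hy⟩

theorem TP.union {n : ℕ} {ι κ : Type} {S T : Set (Fin n → ℝ)} {r : ι → ℝ} {q : κ → ℝ}
    (h : TP S r) (h' : TP T q) (hd : Disjoint S T) : TP (S ∪ T) (Sum.elim r q) := by
  obtain ⟨A, B, v, hAB, h1, h2⟩ := h
  obtain ⟨A', B', v', hAB', h1', h2'⟩ := h'
  refine ⟨Sum.elim A A', Sum.elim B B', Sum.elim v v', ?_, ?_, ?_⟩
  · rintro (i | i)
    · exact hAB i
    · exact hAB' i
  · rintro (i | i) x hx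
    · exact Or.inl (h1 i x hx)
    · exact Or.inr (h1' i x hx)
  · rintro (i | i) (j | j) hij x hx y hy
    · exact h2 i j (fun h => hij (by rw [h])) x hx y hy
    · intro h
      exact Set.disjoint_left.mp hd (h1 i x hx) (by
        have := h1' j y hy
        simp only [Sum.elim_inl, Sum.elim_inr] at h
        rw [h]
        exact this)
    · intro h
      exact Set.disjoint_left.mp hd (h1 j y hy) (by
        have := h1' i x hx
        simp only [Sum.elim_inl, Sum.elim_inr] at h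
        rw [← h]
        exact this)
    · exact h2' i j (fun h => hij (by rw [h])) x hx y hy

theorem affX_comp {n : ℕ} (A A' : Matrix (Fin n) (Fin n) ℤ) (v v' x : Fin n → ℝ) :
    affX A v (affX A' v' x) = affX (A * A') (affX A v v') x := by
  funext j
  unfold affX
  have h1 : ∀ k, ((A * A') j k : ℝ) = ∑ l, (A j l : ℝ) * (A' l k : ℝ) := by
    intro k
    rw [Matrix.mul_apply]
    push_cast
    rfl
  have h2 : ∑ k, ((A * A') j k : ℝ) * x k = ∑ l, (A j l : ℝ) * ∑ k, (A' l k : ℝ) * x k := by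
    simp only [h1, Finset.sum_mul, Finset.mul_sum]
    rw [Finset.sum_comm]
    refine Finset.sum_congr rfl fun l _ => Finset.sum_congr rfl fun k _ => ?_
    ring
  rw [h2]
  simp only [mul_add, Finset.sum_add_distrib]
  ring

theorem TP.bind {n : ℕ} {ι : Type} {κ : ι → Type} {S : Set (Fin n → ℝ)} {r : ι → ℝ}
    {q : (i : ι) → κ i → ℝ} (h : TP S r) (h' : ∀ i, TP (osimp n (r i)) (q i)) :
    TP S (fun p : (i : ι) × κ i => q p.1 p.2) := by
  obtain ⟨A, B, v, hAB, h1, h2⟩ := h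
  choose A' B' v' hAB' h1' h2' using h'
  refine ⟨fun p => A p.1 * A' p.1 p.2, fun p => B p.1 * B' p.1 p.2,
    fun p => affX (A p.1) (v p.1) (v' p.1 p.2), ?_, ?_, ?_⟩
  · intro p
    rw [Matrix.transpose_mul, Matrix.mul_assoc, ← Matrix.mul_assoc _ (B p.1), hAB, Matrix.one_mul,
      hAB']
  · intro p x hx
    rw [← affX_comp]
    exact h1 _ _ (h1' _ _ _ hx)
  · rintro ⟨i, a⟩ ⟨j, b⟩ hij x hx y hy
    simp only at hx hy ⊢
    rw [← affX_comp, ← affX_comp]
    by_cases hi : i = j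
    · subst hi
      have hab : a ≠ b := fun hab => hij (by rw [hab])
      intro h
      exact h2' i a b hab x hx y hy (affX_inj (hAB i) (v i) h)
    · exact h2 i j hi _ (h1' i a x hx) _ (h1' j b y hy)

theorem TP.self (n : ℕ) (R : ℝ) : TP (osimp n R) (fun _ : Unit => R) := by
  refine ⟨fun _ => 1, fun _ => 1, fun _ => 0, ?_, ?_, ?_⟩
  · intro _
    simp
  · intro _ x hx
    have : affX 1 0 x = x := by
      funext j
      simp [affX, Matrix.one_apply]
    rw [this]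
    exact hx
  · intro i j hij
    exact absurd (Subsingleton.elim i j) hij

end

end Vale.Agent.P209
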