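import Mathlib
import Vale.Agent.Lib.P209.Toric

/-! Alcove subdivision of a simplex. -/

namespace Vale.Agent.P209

noncomputable section

/-- partial sums -/
def ps {n : ℕ} (x : Fin n → ℝ) (j : Fin n) : ℝ := ∑ k ∈ Finset.Iic j, x k

/-- summation matrix -/
def Sm (n : ℕ) : Matrix (Fin n) (Fin n) ℤ := Matrix.of fun j k => if k ≤ j then 1 else 0

theorem Sm_det (n : ℕ) : (Sm n).det = 1 := by
  rw [Matrix.det_of_isLowerTriangular]
  · simp [Sm]
  · intro i j hij
    simp only [OrderDual.toDual_lt_toDual] at hij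
    simp [Sm, not_le.mpr hij]

theorem Sm_inv (n : ℕ) : (Sm n)⁻¹ * Sm n = 1 ∧ Sm n * (Sm n)⁻¹ = 1 := by
  have h : IsUnit (Sm n).det := by rw [Sm_det]; exact isUnit_one
  exact ⟨Matrix.nonsing_inv_mul _ h, Matrix.mul_nonsing_inv _ h⟩

theorem ps_eq {n : ℕ} (x : Fin n → ℝ) : ps x = affX (Sm n) 0 x := by
  funext j
  unfold ps affX Sm
  simp only [Matrix.of_apply, Pi.zero_apply, add_zero]
  have : ∀ k : Fin n, (((if k ≤ j then 1 else 0 : ℤ) : ℝ)) * x k = if k ≤ j then x k else 0 := by
    intro k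
    split_ifs <;> simp
  simp only [this]
  rw [← Finset.sum_filter]
  congr 1
  ext k
  simp

/-- permutation matrix acting by `t ↦ t ∘ σ` -/
def Pm {n : ℕ} (σ : Equiv.Perm (Fin n)) : Matrix (Fin n) (Fin n) ℤ :=
  Matrix.of fun j k => if k = σ j then 1 else 0

theorem Pm_transpose_mul {n : ℕ} (σ : Equiv.Perm (Fin n)) : (Pm σ).transpose * Pm σ = 1 := by
  ext i j
  rw [Matrix.mul_apply, Matrix.one_apply]
  simp only [Matrix.transpose_apply, Pm, Matrix.of_apply, ite_mul, one_mul, zero_mul]
  have : ∀ k : Fin n, (if i = σ k then (if j = σ k then (1 : ℤ) else 0) else 0)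
      = if k = σ.symm i then (if i = j then 1 else 0) else 0 := by
    intro k
    by_cases h : i = σ k
    · have : k = σ.symm i := by rw [h]; simp
      simp only [this]
      simp [eq_comm]
    · have : k ≠ σ.symm i := by
        intro h2
        apply h
        rw [h2]
        simp
      simp [h, this]
  simp only [this]
  simp

theorem affX_Pm {n : ℕ} (σ : Equiv.Perm (Fin n)) (c x : Fin n → ℝ) :
    affX (Pm σ) c x = fun j => x (σ j) + c j := by
  funext j
  simp [affX, Pm]

/-- alcove matrices -/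
theorem exists_alcove {n : ℕ} (σ : Equiv.Perm (Fin n)) (c : Fin n → ℝ) :
    ∃ (A B : Matrix (Fin n) (Fin n) ℤ) (v : Fin n → ℝ), A.transpose * B = 1 ∧
      ∀ x, ∀ j, ps (affX A v x) j = ps x (σ j) + c j := by
  refine ⟨(Sm n)⁻¹ * (Pm σ * Sm n), (Sm n).transpose * (Pm σ * ((Sm n)⁻¹).transpose),
    affX ((Sm n)⁻¹) 0 c, ?_, ?_⟩
  · rw [Matrix.transpose_mul, Matrix.transpose_mul]
    have h1 : ((Sm n)⁻¹).transpose * (Sm n).transpose = 1 := by
      rw [← Matrix.transpose_mul, (Sm_inv n).2, Matrix.transpose_one]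
    have h2 : (Sm n).transpose * ((Sm n)⁻¹).transpose = 1 := by
      rw [← Matrix.transpose_mul, (Sm_inv n).1, Matrix.transpose_one]
    calc (Sm n).transpose * (Pm σ).transpose * ((Sm n)⁻¹).transpose *
          ((Sm n).transpose * (Pm σ * ((Sm n)⁻¹).transpose))
        = (Sm n).transpose * (Pm σ).transpose * (((Sm n)⁻¹).transpose * (Sm n).transpose)
          * (Pm σ * ((Sm n)⁻¹).transpose) := by simp only [Matrix.mul_assoc]
      _ = (Sm n).transpose * ((Pm σ).transpose * Pm σ) * ((Sm n)⁻¹).transpose := by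
          rw [h1]; simp only [Matrix.mul_assoc, Matrix.one_mul]
      _ = 1 := by rw [Pm_transpose_mul, Matrix.mul_one, h2]
  · intro x j
    have h0 : affX 1 0 = (fun y : Fin n → ℝ => y) := by
      funext y j
      simp [affX, Matrix.one_apply]
    have h1 : ps (affX ((Sm n)⁻¹ * (Pm σ * Sm n)) (affX ((Sm n)⁻¹) 0 c) x)
        = affX (Pm σ) c (ps x) := by
      rw [← affX_comp, ps_eq, affX_comp, (Sm_inv n).2, ps_eq]
      have hz : affX (Sm n) (0 : Fin n → ℝ) 0 = 0 := by
        funext j; simp [affX]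
      rw [hz, h0]
      have : affX (Pm σ * Sm n) c x = affX (Pm σ * Sm n) (affX (Pm σ) c 0) x := by
        congr 1
        rw [affX_Pm]
        funext j
        simp
      rw [this, ← affX_comp]
    rw [h1, affX_Pm]

theorem ps_lt {n : ℕ} {x : Fin n → ℝ} (hx : ∀ j, 0 < x j) {i j : Fin n} (h : i < j) :
    ps x i < ps x j := by
  unfold ps
  apply Finset.sum_lt_sum_of_subset (i := j)
  · exact Finset.Iic_subset_Iic.mpr h.le
  · simp
  · simp [h]
  · exact hx j
  · intro k _ _
    exact (hx k).le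

theorem ps_pos {n : ℕ} {x : Fin n → ℝ} (hx : ∀ j, 0 < x j) (j : Fin n) : 0 < ps x j := by
  unfold ps
  apply Finset.sum_pos
  · intro k _
    exact hx k
  · exact ⟨j, by simp⟩

theorem ps_le_sum {n : ℕ} {x : Fin n → ℝ} (hx : ∀ j, 0 < x j) (j : Fin n) : ps x j ≤ ∑ k, x k := by
  unfold ps
  apply Finset.sum_le_sum_of_subset_of_nonneg
  · exact Finset.subset_univ _
  · intro k _ _
    exact (hx k).le

theorem sum_eq_ps {n : ℕ} (x : Fin (n + 1) → ℝ) : ∑ k, x k = ps x (Fin.last n) := by
  unfold ps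
  congr 1
  ext k
  simp [Fin.le_last]

theorem pos_of_ps {n : ℕ} {y : Fin n → ℝ} (h0 : ∀ j, 0 < ps y j)
    (hm : ∀ i j, i < j → ps y i < ps y j) (j : Fin n) : 0 < y j := by
  have h1 : ps y j = y j + ∑ k ∈ Finset.Iio j, y k := by
    unfold ps
    rw [← Finset.Iio_insert, Finset.sum_insert (by simp)]
  by_cases hj : (j : ℕ) = 0
  · have h2 : Finset.Iio j = ∅ := by
      ext k
      simp only [Finset.mem_Iio, Finset.notMem_empty, iff_false, not_lt]
      rw [Fin.le_def, hj]
      exact Nat.zero_le _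
    rw [h2, Finset.sum_empty, add_zero] at h1
    rw [← h1]
    exact h0 j
  · set i : Fin n := ⟨(j : ℕ) - 1, by omega⟩ with hi
    have hij : i < j := by
      rw [Fin.lt_def]
      simp only [hi]
      omega
    have h2 : Finset.Iio j = Finset.Iic i := by
      ext k
      simp only [Finset.mem_Iio, Finset.mem_Iic, Fin.lt_def, Fin.le_def, hi]
      omega
    rw [h2] at h1
    have h3 := hm i j hij
    unfold ps at h3 h1
    linarith

theorem sum_lt_of_ps {n : ℕ} {y : Fin n → ℝ} {R : ℝ} (hR : 0 < R) (h : ∀ j, ps y j < R) :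
    ∑ k, y k < R := by
  cases n with
  | zero => simpa using hR
  | succ n =>
    rw [sum_eq_ps]
    exact h _

theorem perm_eq_one {n : ℕ} (σ : Equiv.Perm (Fin n)) (h : StrictMono σ) : σ = 1 := by
  have := (Equiv.Perm.monotone_iff σ).mp h.monotone
  exact this

/-- the alcove data of a function `f : Fin n → ℕ` -/
theorem exists_alcoves (n : ℕ) (L ε : ℝ) :
    ∃ (A B : (Fin n → ℕ) → Matrix (Fin n) (Fin n) ℤ) (v : (Fin n → ℕ) → Fin n → ℝ),
      (∀ f, (A f).transpose * (B f) = 1) ∧
      ∀ f x j, ps (affX (A f) (v f) x) j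
        = ps x (Tuple.sort f j) + (L + ε * (f (Tuple.sort f j) : ℝ)) := by
  have h : ∀ f : Fin n → ℕ, ∃ (A B : Matrix (Fin n) (Fin n) ℤ) (v : Fin n → ℝ),
      A.transpose * B = 1 ∧
      ∀ x j, ps (affX A v x) j = ps x (Tuple.sort f j) + (L + ε * (f (Tuple.sort f j) : ℝ)) :=
    fun f => exists_alcove (Tuple.sort f) (fun j => L + ε * (f (Tuple.sort f j) : ℝ))
  choose A B v h1 h2 using h
  exact ⟨A, B, v, h1, h2⟩

/-- Alcove packing: for functions `f : Fin n → ℕ` with values `< m`, the simplices of size `ε` sit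
disjointly in the simplex of size `R`, above the level determined by the maximum of `f`. -/
theorem alcove_pack (n : ℕ) {L ε R : ℝ} (hL : 0 ≤ L) (hε : 0 < ε) (hR0 : 0 < R) :
    ∃ (A B : (Fin n → ℕ) → Matrix (Fin n) (Fin n) ℤ) (v : (Fin n → ℕ) → Fin n → ℝ),
      (∀ f, (A f).transpose * (B f) = 1) ∧
      (∀ f : Fin n → ℕ, (∀ a, L + ε * ((f a : ℝ) + 1) ≤ R) → ∀ x ∈ osimp n ε,
        affX (A f) (v f) x ∈ osimp n R ∧ ∀ a, L + ε * (f a : ℝ) < ∑ k, affX (A f) (v f) x k) ∧
      (∀ f g : Fin n → ℕ, f ≠ g → ∀ x ∈ osimp n ε, ∀ y ∈ osimp n ε,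
        affX (A f) (v f) x ≠ affX (A g) (v g) y) := by
  obtain ⟨A, B, v, hAB, hps⟩ := exists_alcoves n L ε
  refine ⟨A, B, v, hAB, ?_, ?_⟩
  · intro f hfR x hx
    have hx0 := hx.1
    have hxε : ∀ j, ps x j < ε := fun j => lt_of_le_of_lt (ps_le_sum hx0 j) hx.2
    have hs := (Tuple.eq_sort_iff (f := f) (σ := Tuple.sort f)).mp rfl
    have hpos : ∀ j, 0 < ps (affX (A f) (v f) x) j := by
      intro j
      rw [hps]
      have := ps_pos hx0 (Tuple.sort f j)
      positivity
    have hmono : ∀ i j, i < j → ps (affX (A f) (v f) x) i < ps (affX (A f) (v f) x) j := by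
      intro i j hij
      rw [hps, hps]
      have h1 : f (Tuple.sort f i) ≤ f (Tuple.sort f j) := hs.1 hij.le
      rcases h1.lt_or_eq with h2 | h2
      · have h3 : (f (Tuple.sort f i) : ℝ) + 1 ≤ (f (Tuple.sort f j) : ℝ) := by exact_mod_cast h2
        have h4 := hxε (Tuple.sort f i)
        have h5 := ps_pos hx0 (Tuple.sort f j)
        have h6 : ε * ((f (Tuple.sort f i) : ℝ) + 1) ≤ ε * (f (Tuple.sort f j) : ℝ) := by gcongr
        linarith
      · rw [h2]
        have h3 := hs.2 i j hij h2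
        have h4 := ps_lt hx0 h3
        linarith
    have hy0 : ∀ j, 0 < affX (A f) (v f) x j := pos_of_ps hpos hmono
    refine ⟨⟨hy0, ?_⟩, ?_⟩
    · apply sum_lt_of_ps hR0
      intro j
      rw [hps]
      have h1 := hfR (Tuple.sort f j)
      have h2 := hxε (Tuple.sort f j)
      linarith
    · intro a
      have h1 := ps_le_sum hy0 ((Tuple.sort f).symm a)
      rw [hps] at h1
      simp only [Equiv.apply_symm_apply] at h1
      have h2 := ps_pos hx0 a
      linarith
  · intro f g hfg x hx y hy h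
    apply hfg
    have hx0 := hx.1
    have hy0 := hy.1
    have hxε : ∀ j, ps x j < ε := fun j => lt_of_le_of_lt (ps_le_sum hx0 j) hx.2
    have hyε : ∀ j, ps y j < ε := fun j => lt_of_le_of_lt (ps_le_sum hy0 j) hy.2
    have h1 : ∀ j, ps x (Tuple.sort f j) + ε * (f (Tuple.sort f j) : ℝ)
        = ps y (Tuple.sort g j) + ε * (g (Tuple.sort g j) : ℝ) := by
      intro j
      have h2 := hps f x j
      have h3 := hps g y j
      rw [h] at h2
      linarith
    have h2 : ∀ j, f (Tuple.sort f j) = g (Tuple.sort g j) := by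
      intro j
      by_contra hne
      have ha := hxε (Tuple.sort f j)
      have hb := hyε (Tuple.sort g j)
      have hc := ps_pos hx0 (Tuple.sort f j)
      have hd := ps_pos hy0 (Tuple.sort g j)
      have he := h1 j
      rcases lt_or_gt_of_ne hne with hlt | hlt
      · have h3 : (f (Tuple.sort f j) : ℝ) + 1 ≤ (g (Tuple.sort g j) : ℝ) := by exact_mod_cast hlt
        have h4 : ε * ((f (Tuple.sort f j) : ℝ) + 1) ≤ ε * (g (Tuple.sort g j) : ℝ) := by gcongr
        linarith
      · have h3 : (g (Tuple.sort g j) : ℝ) + 1 ≤ (f (Tuple.sort f j) : ℝ) := by exact_mod_cast hlt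
        have h4 : ε * ((g (Tuple.sort g j) : ℝ) + 1) ≤ ε * (f (Tuple.sort f j) : ℝ) := by gcongr
        linarith
    have h3 : ∀ j, ps x (Tuple.sort f j) = ps y (Tuple.sort g j) := by
      intro j
      have := h1 j
      rw [h2 j] at this
      linarith
    have hσ : Tuple.sort f = Tuple.sort g := by
      have h4 : StrictMono ((Tuple.sort f).symm.trans (Tuple.sort g)) := by
        intro a b hab
        have h5 : ps x a < ps x b := ps_lt hx0 hab
        have h6 := h3 ((Tuple.sort f).symm a)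
        have h7 := h3 ((Tuple.sort f).symm b)
        simp only [Equiv.apply_symm_apply] at h6 h7
        rw [h6, h7] at h5
        by_contra hcon
        rw [not_lt] at hcon
        rcases hcon.lt_or_eq with h8 | h8
        · exact absurd (ps_lt hy0 h8) (not_lt.mpr h5.le)
        · simp only [Equiv.trans_apply] at h8
          rw [h8] at h5
          exact lt_irrefl _ h5
      have h5 := perm_eq_one _ h4
      ext j
      have h6 := congrArg (fun e : Equiv.Perm (Fin n) => e (Tuple.sort f j)) h5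
      simp at h6
      rw [h6]
    funext a
    have h4 := h2 ((Tuple.sort f).symm a)
    rw [← hσ] at h4
    simpa using h4

end

end Vale.Agent.P209
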