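import Mathlib
import Vale.Agent.Lib.P209.Alcove

/-! Consequences of the alcove subdivision. -/

namespace Vale.Agent.P209

noncomputable section

/-- full subdivision into `m^n` alcoves -/
theorem tp_full (n : ℕ) {m : ℕ} (hm : 1 ≤ m) {R : ℝ} (hR : 0 < R) :
    TP (osimp n R) (fun _ : Fin n → Fin m => R / m) := by
  have hm0 : (0 : ℝ) < m := by exact_mod_cast hm
  obtain ⟨A, B, v, hAB, h1, h2⟩ := alcove_pack n (L := 0) (ε := R / m) (R := R) le_rfl
    (by positivity) hR
  have hinj : Function.Injective (fun (f : Fin n → Fin m) => fun a => ((f a : Fin m) : ℕ)) := by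
    intro f g h
    funext a
    exact Fin.ext (congrFun h a)
  refine ⟨fun f => A (fun a => (f a : ℕ)), fun f => B (fun a => (f a : ℕ)),
    fun f => v (fun a => (f a : ℕ)), fun f => hAB _, ?_, ?_⟩
  · intro f x hx
    refine (h1 _ ?_ x hx).1
    intro a
    have h3 : ((f a : ℕ) : ℝ) + 1 ≤ m := by exact_mod_cast (f a).isLt
    calc 0 + R / m * (((f a : ℕ) : ℝ) + 1) ≤ 0 + R / m * m := by gcongr
      _ = R := by field_simp; simp
  · intro f g hfg x hx y hy
    exact h2 _ _ (fun h => hfg (hinj h)) x hx y hy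

/-- alcoves of size `ε` in the slab `R - ε < ∑ y < R` -/
theorem tp_slab (n : ℕ) {m : ℕ} {R ε : ℝ} (hR : 0 < R) (hε : 0 < ε) (hmR : m * ε ≤ R) :
    TP {y | y ∈ osimp n R ∧ R - ε < ∑ k, y k}
      (fun _ : {f : Fin n → Fin m // ∃ a, (f a : ℕ) + 1 = m} => ε) := by
  obtain ⟨A, B, v, hAB, h1, h2⟩ := alcove_pack n (L := R - m * ε) (ε := ε) (R := R)
    (by linarith) hε hR
  have hinj : Function.Injective (fun (f : Fin n → Fin m) => fun a => ((f a : Fin m) : ℕ)) := by
    intro f g h
    funext a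
    exact Fin.ext (congrFun h a)
  refine ⟨fun f => A (fun a => (f.1 a : ℕ)), fun f => B (fun a => (f.1 a : ℕ)),
    fun f => v (fun a => (f.1 a : ℕ)), fun f => hAB _, ?_, ?_⟩
  · rintro ⟨f, a₀, ha₀⟩ x hx
    have h3 := h1 (fun a => (f a : ℕ)) (by
      intro a
      have h3 : ((f a : ℕ) : ℝ) + 1 ≤ m := by exact_mod_cast (f a).isLt
      have : ε * (((f a : ℕ) : ℝ) + 1) ≤ ε * m := by gcongr
      linarith) x hx
    refine ⟨h3.1, ?_⟩
    have h4 := h3.2 a₀
    have h5 : ((f a₀ : ℕ) : ℝ) + 1 = m := by exact_mod_cast ha₀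
    have h6 : ε * ((f a₀ : ℕ) : ℝ) = ε * m - ε := by rw [← h5]; ring
    simp only
    linarith
  · intro f g hfg x hx y hy
    refine h2 _ _ (fun h => hfg ?_) x hx y hy
    exact Subtype.ext (hinj h)

/-- one simplex of size `R - ε` and the alcoves of size `ε` in the remaining slab -/
theorem tp_big (n : ℕ) {m : ℕ} {R ε : ℝ} (hR : 0 < R) (hε : 0 < ε) (hmR : m * ε ≤ R) :
    TP (osimp n R) (Sum.elim (fun _ : Unit => R - ε)
      (fun _ : {f : Fin n → Fin m // ∃ a, (f a : ℕ) + 1 = m} => ε)) := by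
  have h := (TP.self n (R - ε)).union (tp_slab n hR hε hmR) (by
    rw [Set.disjoint_left]
    intro y hy hy'
    exact lt_irrefl _ (hy.2.trans hy'.2))
  refine h.mono ?_ (fun i => le_rfl)
  rintro y (hy | hy)
  · exact osimp_mono (by linarith) hy
  · exact hy.1

theorem card_slab (n m : ℕ) (hm : 1 ≤ m) :
    Fintype.card {f : Fin n → Fin m // ∃ a, (f a : ℕ) + 1 = m} = m ^ n - (m - 1) ^ n := by
  classical
  have h1 : Fintype.card {f : Fin n → Fin m // ¬ ∃ a, (f a : ℕ) + 1 = m} = (m - 1) ^ n := by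
    have e : {f : Fin n → Fin m // ¬ ∃ a, (f a : ℕ) + 1 = m} ≃ (Fin n → Fin (m - 1)) :=
      { toFun := fun f a => ⟨(f.1 a : ℕ), by
          have h2 := f.2
          push Not at h2
          have h3 := h2 a
          have h4 := (f.1 a).isLt
          omega⟩
        invFun := fun g => ⟨fun a => ⟨(g a : ℕ), by have := (g a).isLt; omega⟩, by
          push Not
          intro a
          have := (g a).isLt
          simp only
          omega⟩
        left_inv := fun f => by
          apply Subtype.ext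
          funext a
          rfl
        right_inv := fun g => by
          funext a
          rfl }
    rw [Fintype.card_congr e]
    simp
  have h2 := Fintype.card_subtype_compl (fun f : Fin n → Fin m => ∃ a, (f a : ℕ) + 1 = m)
  have h3 : Fintype.card (Fin n → Fin m) = m ^ n := by simp
  have h4 := Fintype.card_subtype_le (fun f : Fin n → Fin m => ∃ a, (f a : ℕ) + 1 = m)
  rw [h3] at h2 h4
  rw [h1] at h2
  omega

/-- Few balls besides one: the packing statement. -/
theorem few_balls {n k m : ℕ} (hm : 1 ≤ m) (hk : k ≤ m ^ n - (m - 1) ^ n + 1) {R : ℝ} (hR : 0 < R)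
    {r : Fin k → ℝ} (hr : ∀ i, 0 < r i) (i₀ : Fin k) (h0 : r i₀ < R)
    (h1 : ∀ i, i ≠ i₀ → r i < R / m) (h2 : ∀ i, i ≠ i₀ → r i + r i₀ < R) :
    BallsEmbed n k r R := by
  classical
  have hm0 : (0 : ℝ) < m := by exact_mod_cast hm
  obtain ⟨ε, hε, hεm, hε0, hεi⟩ : ∃ ε : ℝ, 0 < ε ∧ m * ε ≤ R ∧ r i₀ < R - ε ∧
      ∀ i, i ≠ i₀ → r i < ε := by
    set c := min (R / m) (R - r i₀) with hc
    have hc0 : 0 < c := lt_min (by positivity) (by linarith)
    have e1 : ∀ᶠ ε in nhdsWithin c (Set.Iio c), 0 < ε ∧ ε < c := Ioo_mem_nhdsLT hc0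
    have e2 : ∀ᶠ ε in nhdsWithin c (Set.Iio c), ∀ i, i ≠ i₀ → r i < ε := by
      rw [Filter.eventually_all]
      intro i
      by_cases hi : i = i₀
      · exact Filter.Eventually.of_forall fun ε h => absurd hi h
      · have : r i < c := lt_min (h1 i hi) (by have := h2 i hi; linarith)
        filter_upwards [Ioo_mem_nhdsLT this] with ε hε _
        exact hε.1
    obtain ⟨ε, ⟨h3, h4⟩, h5⟩ := (e1.and e2).exists
    refine ⟨ε, h3, ?_, ?_, h5⟩
    · have : ε ≤ R / m := h4.le.trans (min_le_left _ _)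
      calc m * ε ≤ m * (R / m) := by gcongr
        _ = R := by field_simp
    · have : ε < R - r i₀ := lt_of_lt_of_le h4 (min_le_right _ _)
      linarith
  have hT := tp_big n hR hε hεm
  set J := {f : Fin n → Fin m // ∃ a, (f a : ℕ) + 1 = m} with hJ
  have hcard : Fintype.card {i : Fin k // i ≠ i₀} ≤ Fintype.card J := by
    rw [card_slab n m hm, Fintype.card_subtype_compl, Fintype.card_fin, Fintype.card_subtype_eq]
    omega
  obtain ⟨g⟩ := Function.Embedding.nonempty_of_card_le hcard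
  set F : Fin k → Unit ⊕ J := fun i => if h : i = i₀ then Sum.inl () else Sum.inr (g ⟨i, h⟩) with hF
  have hFinj : Function.Injective F := by
    intro i j hij
    by_cases hi : i = i₀
    · by_cases hj : j = i₀
      · rw [hi, hj]
      · simp [hF, hi, hj] at hij
    · by_cases hj : j = i₀
      · simp [hF, hi, hj] at hij
      · simp only [hF, hi, hj, dif_neg, not_false_eq_true, Sum.inr.injEq] at hij
        have := g.injective hij
        exact congrArg Subtype.val this
  refine (hT.reindex hFinj).ballsEmbed hr ?_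
  intro i
  by_cases hi : i = i₀
  · simp only [hF, hi, dif_pos, Sum.elim_inl]
    exact hε0
  · simp only [hF, hi, dif_neg, not_false_eq_true, Sum.elim_inr]
    exact hεi i hi

/-- At most `2^n` balls: the two-ball conditions suffice. -/
theorem two_pow_balls {n k : ℕ} (hk1 : 1 ≤ k) (hk : k ≤ 2 ^ n) {R : ℝ} (hR : 0 < R)
    {r : Fin k → ℝ} (hr : ∀ i, 0 < r i) (hvol : ∑ i, r i ^ n < R ^ n)
    (h2 : ∀ i j, i ≠ j → r i + r j < R) : BallsEmbed n k r R := by
  have : Nonempty (Fin k) := ⟨⟨0, hk1⟩⟩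
  obtain ⟨i₀, hi₀⟩ := Finite.exists_max r
  have h0 : r i₀ < R := by
    have h3 : r i₀ ^ n ≤ ∑ i, r i ^ n :=
      Finset.single_le_sum (f := fun i => r i ^ n) (fun i _ => (pow_pos (hr i) n).le)
        (Finset.mem_univ i₀)
    exact lt_of_pow_lt_pow_left₀ n hR.le (lt_of_le_of_lt h3 hvol)
  refine few_balls (m := 2) (by norm_num) ?_ hR hr i₀ h0 ?_ ?_
  · have : 1 ≤ 2 ^ n := Nat.one_le_two_pow
    simp
    omega
  · intro i hi
    have h3 := h2 i i₀ hi
    have h4 := hi₀ i
    push_cast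
    linarith
  · intro i hi
    exact h2 i i₀ hi

end

end Vale.Agent.P209
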